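import Vale.Agent.P179.H445.TwistQ
import Vale.Agent.P179.H904.Asm

/-!
# SIGNATURE project (P179): frozen letters and one `Prop` per module

`A` is the local algebra `k[Γ]` (`Γ = N_G(P)/O_{p'}(C_G(P)) = P ⋊ T`, or its base change),
`B` the corner `f kG f` (or its base change).
-/

namespace Vale.P179.Sgn

open Module Vale.P179.H175 Vale.P179.H904 Vale.P179.H445
open scoped TensorProduct

/-! ## (D1) the relative data -/

/-- The relative data `A → B` (letters of D1, row 4740; `A` spanned by the finite group `Γ`). -/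
structure KData (k A B Γ : Type) [Field k] [Ring A] [Algebra k A] [Ring B] [Algebra k B]
    [Group Γ] [Fintype Γ] where
  /-- the group elements in `A` -/
  γ : Γ →* A
  /-- the augmentation -/
  aug : A →ₐ[k] k
  /-- the algebra map -/
  ι : A →ₐ[k] B
  /-- the bimodule retraction -/
  ρ : B →ₗ[k] A
  /-- Higman's map -/
  θ : B →ₗ[k] B
  /-- number of terms of the separability element -/
  m : ℕ
  /-- left half of the separability element -/
  s : Fin m → B
  /-- right half of the separability element -/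
  t : Fin m → B
  /-- the symmetrising form -/
  τ : B →ₗ[k] k
  span : Submodule.span k (Set.range γ) = ⊤
  augγ : ∀ g, aug (γ g) = 1
  nz : ∑ g, γ g ≠ 0
  card0 : (Fintype.card Γ : k) = 0
  rel : Rel γ ι ρ θ
  st : ∑ i, s i * t i = 1
  sep : ∀ b : B, (∑ i, (b * s i) ⊗ₜ[k] t i) - (∑ i, s i ⊗ₜ[k] (t i * b)) ∈
    Submodule.span k {z : B ⊗[k] B | ∃ (x y : B) (h : A), z = (x * ι h) ⊗ₜ[k] y - x ⊗ₜ[k] (ι h * y)}
  tc : ∀ a b, τ (a * b) = τ (b * a)
  nd : ∀ a, (∀ b, τ (a * b) = 0) → a = 0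
  tρ : ∀ b, τ (ι (ρ b)) = τ b

/-- every central element is a unit or nilpotent -/
def ZLoc (B : Type) [Ring B] : Prop := ∀ z : B, (∀ b, z * b = b * z) → IsUnit z ∨ IsNilpotent z

/-- the span of commutators and nilpotent elements; its codimension is the number of simple
modules (`k` algebraically closed) -/
def TB (k B : Type) [Field k] [Ring B] [Algebra k B] : Submodule k B :=
  Submodule.span k ({x | IsNilpotent x} ∪ {x | ∃ a b : B, x = a * b - b * a})

/-- the number of simple modules in the form `dim B / (nilpotents + [B,B])` -/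
noncomputable def lB (k B : Type) [Field k] [Ring B] [Algebra k B] : ℕ :=
  finrank k (B ⧸ TB k B)

/-! ## (D2) the graded local algebra -/

/-- The grading of `A = k[Γ]`: degrees `0, …, M - 1` (`M` is 904's `N`), `M = e q + 1`. -/
structure HGr (k A Γ : Type) [Field k] [Ring A] [Algebra k A] [Group Γ] [Fintype Γ]
    (γ : Γ →* A) (e M c : ℕ) [NeZero e] where
  /-- the grading -/
  W : ℚ → Submodule k A
  /-- the radical -/
  J : Submodule k A
  /-- the primitive idempotents -/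
  ε : ZMod e → A
  hM : ∃ q : ℕ, 1 ≤ q ∧ M = e * q + 1
  basic : Basic W J ε
  sum : ∑ a, ε a = 1
  orth : ∀ a b, a ≠ b → ε a * ε b = 0
  supp : ∀ r : ℚ, (∀ w : ℕ, w < M → r ≠ w) → W r = ⊥
  dim : ∀ a b, gd W (cor2 k (ε a) (ε b)) = CHz e M c a b
  top : ∑ g, γ g ∈ W ((M : ℚ) - 1)

/-- `Γ = D ⋊ ⟨t⟩`, `D ≠ 1` an abelian `p`-group, `t` of order `e` acting freely on `D - 1` -/
def FreeCyc (p : ℕ) (Γ : Type) [Group Γ] (e : ℕ) : Prop :=
  ∃ (D : Subgroup Γ) (t : Γ), D.Normal ∧ IsPGroup p D ∧ (∀ x ∈ D, ∀ y ∈ D, x * y = y * x) ∧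
    D ≠ ⊥ ∧ orderOf t = e ∧ Subgroup.IsComplement' D (Subgroup.zpowers t) ∧
    ∀ (i : ℕ), ∀ d ∈ D, d ≠ 1 → t ^ i * d = d * t ^ i → e ∣ i

/-- MODULE S4A (342, 190, 664). -/
def S4A : Prop := ∀ (p : ℕ) [Fact p.Prime] (k : Type) [Field k] [IsAlgClosed k] [CharP k p]
  (Γ : Type) [Group Γ] [Fintype Γ] (e : ℕ) [NeZero e], FreeCyc p Γ e →
  ∃ M c : ℕ, Nonempty (HGr k (MonoidAlgebra k Γ) Γ (MonoidAlgebra.of k Γ) e M c)

/-! ## (D3) the Hasse–Schmidt derivation -/

/-- A Hasse–Schmidt derivation of `B` extending `h ↦ (1 + s)^w h` (`h ∈ W w`). -/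
structure HSD (k : Type) {A B : Type} [Field k] [Ring A] [Algebra k A] [Ring B] [Algebra k B]
    (ι : A →ₐ[k] B) (W : ℚ → Submodule k A) where
  /-- the coefficients -/
  g : ℕ → B →ₗ[k] B
  zero : g 0 = LinearMap.id
  mul : ∀ (n : ℕ) (a b : B), g n (a * b) = ∑ i ∈ Finset.range (n + 1), g i a * g (n - i) b
  ext : ∀ (w n : ℕ) (h : A), h ∈ W w → g n (ι h) = (Nat.choose w n : k) • ι h

/-- MODULE S1 (709). -/
def S1 : Prop := ∀ (k A B Γ : Type) [Field k] [Ring A] [Algebra k A] [Ring B] [Algebra k B]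
  [FiniteDimensional k B] [Group Γ] [Fintype Γ] (D : KData k A B Γ) (e M c : ℕ) [NeZero e]
  (H : HGr k A Γ D.γ e M c), Nonempty (HSD k D.ι H.W)

/-! ## (D4) the field -/

/-- the field `K = alg. closure of k((s))` -/
abbrev KK (k : Type) [Field k] : Type := AlgebraicClosure (LaurentSeries k)

/-- MODULE FLD (445). -/
def FLD : Prop := ∀ (k A B Γ : Type) [Field k] [IsAlgClosed k] [Ring A] [Algebra k A]
  [FiniteDimensional k A] [Ring B] [Algebra k B] [FiniteDimensional k B] [Nontrivial B]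
  [Group Γ] [Fintype Γ] (D : KData k A B Γ) (e M c : ℕ) [NeZero e] (H : HGr k A Γ D.γ e M c),
  Nonempty (HSD k D.ι H.W) → ZLoc B →
  ∃ (D' : KData (KK k) (KK k ⊗[k] A) (KK k ⊗[k] B) Γ)
    (H' : HGr (KK k) (KK k ⊗[k] A) Γ D'.γ e M c) (l : KK k)
    (g : (KK k ⊗[k] B) ≃ₐ[KK k] (KK k ⊗[k] B)),
    l ≠ 0 ∧ (∀ n : ℕ, 0 < n → l ^ n ≠ 1) ∧
    (∀ (w : ℕ) (h : KK k ⊗[k] A), h ∈ H'.W w → g (D'.ι h) = l ^ w • D'.ι h) ∧
    ZLoc (KK k ⊗[k] B) ∧ lB (KK k) (KK k ⊗[k] B) ≤ lB k B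

/-! ## (D5) gradings -/

/-- MODULE GR (175): the `ℚ`-grading defined by an automorphism, and the basic idempotents. -/
def GR : Prop := ∀ (K B : Type) [Field K] [IsAlgClosed K] [Ring B] [Algebra K B]
  [FiniteDimensional K B] (l : K), l ≠ 0 → (∀ n : ℕ, 0 < n → l ^ n ≠ 1) →
  ∀ g : B ≃ₐ[K] B, ∃ (W : ℚ → Submodule K B) (J : Submodule K B) (n : ℕ) (E : Fin n → B),
    Basic W J E ∧ (∀ (w : ℕ) (h : B), g h = l ^ w • h → h ∈ W w)

/-- MODULE CNT: the number of basic idempotents is at most `lB`. -/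
def CNT : Prop := ∀ (K B : Type) [Field K] [Ring B] [Algebra K B]
  [FiniteDimensional K B] (W : ℚ → Submodule K B) (J : Submodule K B) (n : ℕ) (E : Fin n → B),
    Basic W J E → n ≤ lB K B

/-- MODULE NUM (815, 554), from L1 (175), EP (300), A3 (843), TWIST (445), ASM (904): the
`K`-level theorem. -/
def CORE : Prop := ∀ (K A B Γ : Type) [Field K] [Ring A] [Algebra K A]
  [FiniteDimensional K A] [Ring B] [Algebra K B] [FiniteDimensional K B] [Group Γ] [Fintype Γ]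
  (D : KData K A B Γ) (e M c : ℕ) [NeZero e] (H : HGr K A Γ D.γ e M c) (W : ℚ → Submodule K B)
  (J : Submodule K B) (n : ℕ) (E : Fin n → B), Basic W J E →
  (∀ r : ℚ, ∀ h ∈ H.W r, D.ι h ∈ W r) → ZLoc B → e ≤ n

/-! ## the abstract theorem -/

/-- `KData` and freeness give the lower bound: the output of all modules but S0 and LIB. -/
def LOWER : Prop := ∀ (p : ℕ) [Fact p.Prime] (k : Type) [Field k] [IsAlgClosed k] [CharP k p]
  (B Γ : Type) [Ring B] [Algebra k B] [FiniteDimensional k B] [Nontrivial B] [Group Γ]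
  [Fintype Γ] (D : KData k (MonoidAlgebra k Γ) B Γ) (e : ℕ) [NeZero e], D.γ = MonoidAlgebra.of k Γ →
  FreeCyc p Γ e → ZLoc B → e ≤ lB k B

theorem lower (h4 : S4A) (h1 : S1) (hF : FLD) (hG : GR) (hC : CNT) (hN : CORE) : LOWER := by
  intro p _ k _ _ _ B Γ _ _ _ _ _ _ D e _ hγ hfree hZ
  obtain ⟨M, c, ⟨H⟩⟩ := h4 p k Γ e hfree
  rw [← hγ] at H
  have : FiniteDimensional k (MonoidAlgebra k Γ) := by
    have : Module.Finite k (Γ →₀ k) := inferInstance
    exact Module.Finite.equiv (MonoidAlgebra.coeffLinearEquiv k (M := Γ) (S := k)).symm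
  obtain ⟨D', H', l, g, hl0, hl, hg, hZ', hle⟩ := hF k (MonoidAlgebra k Γ) B Γ D e M c H (h1 _ _ _ _ D e M c H) hZ
  obtain ⟨W, J, n, E, hB, hW⟩ := hG (KK k) (KK k ⊗[k] B) l hl0 hl g
  have hι : ∀ r : ℚ, ∀ h ∈ H'.W r, D'.ι h ∈ W r := by
    intro r h hh
    by_cases hr : ∃ w : ℕ, w < M ∧ r = w
    · obtain ⟨w, -, rfl⟩ := hr
      exact hW w _ (hg w h hh)
    · have := H'.supp r (fun w hw h => hr ⟨w, hw, h⟩)
      rw [this] at hh
      have h0 : h = 0 := by simpa using hh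
      rw [h0, map_zero]
      exact Submodule.zero_mem _
  exact (hN _ _ _ _ D' e M c H' W J n E hB hι hZ').trans ((hC _ _ W J n E hB).trans hle)

end Vale.P179.Sgn
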