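import Vale.Agent.P179.Sgn.Defs
import Vale.Agent.P179.H526.XDefs

/-!
# SIGNATURE project (P179): group level modules and the final assembly
-/

namespace Vale.P179.Sgn

open Module Subgroup P179A P179C

/-- `P` is a nontrivial abelian Sylow subgroup, `N_G(P)/C_G(P)` is cyclic of order `e` and acts
freely on `P - 1`. -/
structure Hyp (p : ℕ) (G : Type) [Group G] (P : Sylow p G) (e : ℕ) : Prop where
  comm : ∀ x ∈ P, ∀ y ∈ P, x * y = y * x
  ne : (P : Subgroup G) ≠ ⊥
  gen : ∃ t ∈ normalizer ((P : Subgroup G) : Set G), ∀ n ∈ normalizer ((P : Subgroup G) : Set G),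
    ∃ i : ℕ, t ^ i * n ∈ centralizer ((P : Subgroup G) : Set G)
  idx : P179X.autOrd (P : Subgroup G) = e
  free : ∀ n ∈ normalizer ((P : Subgroup G) : Set G), ∀ x ∈ P, x ≠ 1 → n * x = x * n →
    n ∈ centralizer ((P : Subgroup G) : Set G)

/-- MODULE GRP (222): `Γ = N_G(P)/O_{p'}(C_G(P))`. -/
def GRP : Prop := ∀ (p : ℕ) [Fact p.Prime] (G : Type) [Group G] [Fintype G] (P : Sylow p G)
  (e : ℕ), Hyp p G P e →
  ∃ (Γ : Type) (_ : Group Γ) (_ : Fintype Γ) (q : normalizer ((P : Subgroup G) : Set G) →* Γ),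
    Function.Surjective q ∧
    (∀ n, q n = 1 ↔ ((n : G) ∈ centralizer ((P : Subgroup G) : Set G) ∧
      (orderOf (n : G)).Coprime p)) ∧
    FreeCyc p Γ e

/-- MODULE CRN (365): the simple modules of a corner of a block. -/
def CRN : Prop := ∀ (p : ℕ) [Fact p.Prime] (k : Type) [Field k] [IsAlgClosed k] [CharP k p]
  (G : Type) [Group G] [Fintype G] (b f : MonoidAlgebra k G), IsBlock b → f * f = f → b * f = f →
  ∀ (B : Type) [Ring B] [Algebra k B] (j : B →ₗ[k] MonoidAlgebra k G),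
  Function.Injective j → (∀ x y, j (x * y) = j x * j y) → j 1 = f →
  (∀ a, f * a * f = a → a ∈ Set.range j) → lB k B ≤ numSimpleIn b

/-- MODULE S0 (531 + 875): the relative data for `B = f kG f`. -/
def S0 : Prop := ∀ (p : ℕ) [Fact p.Prime] (k : Type) [Field k] [IsAlgClosed k] [CharP k p]
  (G : Type) [Group G] [Fintype G] (P : Sylow p G) (e : ℕ), Hyp p G P e →
  ∀ b : MonoidAlgebra k G, IsBlock b → P179X.IsPrincipal b →
  ∀ (Γ : Type) [Group Γ] [Fintype Γ] (q : normalizer ((P : Subgroup G) : Set G) →* Γ),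
  Function.Surjective q →
  (∀ n, q n = 1 ↔ ((n : G) ∈ centralizer ((P : Subgroup G) : Set G) ∧
      (orderOf (n : G)).Coprime p)) →
  ∃ (f : MonoidAlgebra k G) (B : Type) (_ : Ring B) (_ : Algebra k B)
    (_ : FiniteDimensional k B) (_ : Nontrivial B) (j : B →ₗ[k] MonoidAlgebra k G)
    (D : KData k (MonoidAlgebra k Γ) B Γ),
    f * f = f ∧ b * f = f ∧ Function.Injective j ∧ (∀ x y, j (x * y) = j x * j y) ∧ j 1 = f ∧
    (∀ a, f * a * f = a → a ∈ Set.range j) ∧ D.γ = MonoidAlgebra.of k Γ ∧ ZLoc B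

/-- MODULE LIB (671, 999, 222): the upper bound and the number of weights for `p` odd. -/
def LIB : Prop := ∀ (p : ℕ) [Fact p.Prime] (k : Type) [Field k] [IsAlgClosed k] [CharP k p]
  (red : integralClosure ℤ ℂ →+* k)
  (G : Type) [Group G] [Fintype G] (P : Sylow p G) (e : ℕ), Hyp p G P e → p ≠ 2 →
  ∀ b : MonoidAlgebra k G, IsBlock b → P179X.IsPrincipal b →
  numSimpleIn b ≤ e ∧ numWeightsIn p red b = e

/-- The lower bound `e ≤ l(B₀)`, for all primes. -/
theorem principal_lower (hL : LOWER) (hG : GRP) (hC : CRN) (hS : S0) (p : ℕ) [Fact p.Prime]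
    (k : Type) [Field k] [IsAlgClosed k] [CharP k p] (G : Type) [Group G] [Fintype G]
    (P : Sylow p G) (e : ℕ) (h : Hyp p G P e) (b : MonoidAlgebra k G) (hb : IsBlock b)
    (hp : P179X.IsPrincipal b) : e ≤ numSimpleIn b := by
  by_cases he : e = 0
  · omega
  have : NeZero e := ⟨he⟩
  obtain ⟨Γ, _, _, q, hq, hk, hF⟩ := hG p G P e h
  obtain ⟨f, B, _, _, _, _, j, D, hf, hbf, hj, hm, h1, hr, hγ, hZ⟩ :=
    hS p k G P e h b hb hp Γ q hq hk
  exact (hL p k B Γ D e hγ hF hZ).trans (hC p k G b f hb hf hbf B j hj hm h1 hr)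

/-- **The signature theorem** (`p` odd). -/
theorem principal_equality (hL : LOWER) (hG : GRP) (hC : CRN) (hS : S0) (hU : LIB) (p : ℕ)
    [Fact p.Prime] (k : Type) [Field k] [IsAlgClosed k] [CharP k p]
    (red : integralClosure ℤ ℂ →+* k) (G : Type) [Group G] [Fintype G]
    (P : Sylow p G) (e : ℕ) (h : Hyp p G P e) (hp2 : p ≠ 2) (b : MonoidAlgebra k G)
    (hb : IsBlock b) (hp : P179X.IsPrincipal b) :
    numSimpleIn b = e ∧ numWeightsIn p red b = e :=
  ⟨le_antisymm (hU p k red G P e h hp2 b hb hp).1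
    (principal_lower hL hG hC hS p k G P e h b hb hp), (hU p k red G P e h hp2 b hb hp).2⟩

end Vale.P179.Sgn
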