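import Vale.Agent.P179.Sgn.Final
import Vale.Agent.P179.H633.Cnt
import Vale.Agent.P179.H633.S1
import Vale.Agent.P179.H342.S4AFinal
import Vale.Agent.P179.H445.Fld
import Vale.Agent.P179.H175.GRFinal
import Vale.Agent.P179.H554.Core2
import Vale.Agent.P179.H531.Grp2
import Vale.Agent.P179.H365.Crn
import Vale.Agent.P179.H875.S0Final

/-!
# SIGNATURE project (P179): the modules put together
-/

namespace Vale.P179.Sgn

/-- the abstract lower bound -/
theorem lower_all : LOWER :=
  lower P179H342.s4a H633.s1 H445.fld H175.gr H633.cnt H554.core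

/-- **`e ≤ l(B₀)`** for principal blocks with abelian Sylow `p`-subgroup `P` and cyclic
`N_G(P)/C_G(P)` acting freely on `P - 1`; all primes. -/
theorem principal_lower_all (p : ℕ) [Fact p.Prime]
    (k : Type) [Field k] [IsAlgClosed k] [CharP k p] (G : Type) [Group G] [Fintype G]
    (P : Sylow p G) (e : ℕ) (h : Hyp p G P e) (b : MonoidAlgebra k G) (hb : P179C.IsBlock b)
    (hp : P179X.IsPrincipal b) : e ≤ P179C.numSimpleIn b :=
  principal_lower lower_all H531.grp H365.crn H875.s0 p k G P e h b hb hp

end Vale.P179.Sgn
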